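import Vale.Agent.P033.PowerSaving

/-!
The number of orders of real circulant Hadamard matrices has a power saving.
-/

namespace Vale.Agent.Results.P033.OrdersPowerSaving

open Classical Vale.Agent.P033 in
theorem result :
    ∃ C : ℝ, 0 < C ∧
      (∀ x : ℕ, (((Finset.Icc 1 x).filter fun u => IsCirculantHadamardOrder (4 * u ^ 2)).card : ℝ)
        ≤ C * (x : ℝ) ^ ((1 : ℝ) - 1 / 50000)) ∧
      (∀ N : ℕ, (((Finset.Icc 1 N).filter IsCirculantHadamardOrder).card : ℝ)
        ≤ C * (N : ℝ) ^ ((1 : ℝ) / 2 - 1 / 100000)) := by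
  obtain ⟨C, hC, h⟩ := card_orderRoots_power_saving
  obtain ⟨C', -, h'⟩ := card_orders_power_saving
  refine ⟨max C C', lt_of_lt_of_le hC (le_max_left _ _), fun x => ?_, fun N => ?_⟩
  · refine le_trans ?_ (mul_le_mul_of_nonneg_right (le_max_left C C') (Real.rpow_nonneg
      (Nat.cast_nonneg x) _))
    refine le_of_eq_of_le ?_ (h x)
    unfold orderRoots
    congr 2
  · refine le_trans ?_ (mul_le_mul_of_nonneg_right (le_max_right C C') (Real.rpow_nonneg
      (Nat.cast_nonneg N) _))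
    refine h' N _ fun n hn => ?_
    obtain ⟨h1, h2⟩ := Finset.mem_filter.1 hn
    exact ⟨(Finset.mem_Icc.1 h1).1, (Finset.mem_Icc.1 h1).2, h2⟩

end Vale.Agent.Results.P033.OrdersPowerSaving
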