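import Vale.Agent.P033.PrimePart

/-!
A prime power part of u cannot be much larger than the square of the rest.
-/

namespace Vale.Agent.Results.P033.PrimePartSquareBound

theorem result :
    (∀ m : ℕ, 0 < m → ∀ P : ℕ, P.Prime → 13 * (m.primeFactors.card + 2) * m ^ 2 < P → ∀ k : ℕ, 1 ≤ k →
      ¬Vale.Agent.P033.IsCirculantHadamardOrder (4 * (P ^ k * m) ^ 2)) ∧
    (∀ (u t s : ℕ) (A : Finset ℕ), u ≠ 0 → u = t * s →
      (∀ P ∈ A, P.Prime ∧ P ≠ 2 ∧ P ∣ u ∧ ¬P * P ∣ u ∧ ∀ r ∈ u.primeFactors, ¬P ∣ r - 1) →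
      (∀ P ∈ A, ∀ q : ℕ, q.Prime → q ∣ t → q = P ∨ q ^ (P - 1) % (P * P) ≠ 1) →
      Vale.Agent.P033.IsCirculantHadamardOrder (4 * u ^ 2) →
      ((∏ P ∈ A, P : ℕ) : ℝ) * (4 * u ^ 2).totient ≤
        4 * ((4 * u ^ 2 : ℕ) : ℝ) * s ^ 2 * Real.exp (∑ P ∈ A, 2 * Real.log P / P)) :=
  ⟨fun _ hm _ hP hlt _ hk => Vale.Agent.P033.not_order_of_prime_part (Nat.pos_iff_ne_zero.1 hm) hP hlt
      (Nat.one_le_iff_ne_zero.1 hk),
    fun _ _ _ _ hu hts hA hfix hord => Vale.Agent.P033.prod_le_of_order hu hts hA hfix hord⟩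

end Vale.Agent.Results.P033.PrimePartSquareBound
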